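import Crest.Agent.H9.RI.Defs2
import Crest.Agent.H8.RI.Orth

/-! Tasks `T_cnt` and `T_zone` of the S0149 skeleton. -/

set_option autoImplicit false

noncomputable section

namespace Crest.Agent.Lead.RI

open MeasureTheory Set Filter Crest.Agent.H2.RP Crest.Agent.H9.RI Crest.Agent.H8.RI
open scoped Classical

theorem t_cnt : T_cnt := by
  intro θ S Y n m c hS hY hn hc h
  have n0 : (0 : ℝ) < n := by exact_mod_cast hn
  have mk : ∀ k : Fin n, MeasurableSet {x | mv θ x (m k) ∈ S} := fun k => measurable_mv θ _ hS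
  have ik : ∀ k : Fin n, Integrable ({x | mv θ x (m k) ∈ S}.indicator fun _ => (1 : ℝ)) mu :=
    fun k => (integrable_const 1).indicator (mk k)
  have h1 : ∫ x, ∑ k : Fin n, {x | mv θ x (m k) ∈ S}.indicator (fun _ => (1 : ℝ)) x ∂mu
      = n * mu.real S := by
    rw [integral_finset_sum _ fun k _ => ik k]
    rw [Finset.sum_congr rfl fun k _ => by
      rw [integral_indicator (mk k), setIntegral_const, real_mv θ _ hS, smul_eq_mul, mul_one]]
    simp
  have iY : Integrable (Y.indicator fun _ => (n : ℝ)) mu := (integrable_const _).indicator hY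
  have h2 : ∫ x, c + Y.indicator (fun _ => (n : ℝ)) x ∂mu = c + n * mu.real Y := by
    rw [integral_add (integrable_const _) iY, integral_indicator hY, setIntegral_const,
      integral_const]
    simp [mul_comm]
  have h3 : n * mu.real S ≤ c + n * mu.real Y := by
    rw [← h1, ← h2]
    refine integral_mono (integrable_finset_sum _ fun k _ => ik k) ((integrable_const _).add iY)
      fun x => ?_
    have e : ∑ k : Fin n, {x | mv θ x (m k) ∈ S}.indicator (fun _ => (1 : ℝ)) x
        = ((Finset.univ.filter fun k => mv θ x (m k) ∈ S).card : ℝ) := by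
      rw [Finset.card_filter, Nat.cast_sum]
      refine Finset.sum_congr rfl fun k _ => ?_
      by_cases hk : mv θ x (m k) ∈ S <;> simp [indicator, hk]
    simp only [e]
    by_cases hx : x ∈ Y
    · rw [indicator_of_mem hx]
      have : (Finset.univ.filter fun k => mv θ x (m k) ∈ S).card ≤ n := by
        simpa using Finset.card_filter_le (Finset.univ : Finset (Fin n)) _
      have : ((Finset.univ.filter fun k => mv θ x (m k) ∈ S).card : ℝ) ≤ n := by exact_mod_cast this
      linarith
    · rw [indicator_of_notMem hx, add_zero]; exact h x hx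
  rw [div_add' _ _ _ n0.ne', le_div_iff₀ n0]
  linarith

/-- points whose orbit meets `I` at a time in `[a, a + n)` -/
def Hit (θ : ℝ) (I : Set Cir) (a : ℤ) (n : ℕ) : Set Cir :=
  ⋃ i ∈ Finset.range n, {x | mv θ x (a + i) ∈ I}

theorem Hit_meas (θ : ℝ) {I : Set Cir} (hI : MeasurableSet I) (a : ℤ) (n : ℕ) :
    MeasurableSet (Hit θ I a n) :=
  Finset.measurableSet_biUnion _ fun _ _ => measurable_mv θ _ hI

theorem Hit_le (θ : ℝ) {I : Set Cir} (hI : MeasurableSet I) (a : ℤ) (n : ℕ) :
    mu.real (Hit θ I a n) ≤ n * mu.real I := by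
  refine (measureReal_biUnion_finset_le _ _).trans_eq ?_
  rw [Finset.sum_congr rfl fun i _ => real_mv θ _ hI, Finset.sum_const, Finset.card_range,
    nsmul_eq_mul]

theorem not_Hit {θ : ℝ} {I : Set Cir} {a : ℤ} {n : ℕ} {x : Cir} (hx : x ∉ Hit θ I a n) {i : ℤ}
    (h1 : a ≤ i) (h2 : i < a + n) : mv θ x i ∉ I := fun h => hx (by
  simp only [Hit, mem_iUnion, Finset.mem_range, mem_setOf_eq]
  refine ⟨(i - a).toNat, by omega, ?_⟩
  rw [show a + ((i - a).toNat : ℤ) = i by omega]; exact h)

theorem h_fwd {θ : ℝ} {I : Set Cir} {h : Cir → ℕ}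
    (hs : ∀ x, mv θ x 1 ∉ I → h (mv θ x 1) = h x + 1) (x : Cir) (a : ℤ) (n : ℕ)
    (hx : ∀ i : ℤ, a < i → i ≤ a + n → mv θ x i ∉ I) :
    h (mv θ x (a + n)) = h (mv θ x a) + n := by
  induction n with
  | zero => simp
  | succ n ih =>
    have e : mv θ x (a + (n + 1 : ℕ)) = mv θ (mv θ x (a + n)) 1 := by
      rw [mv_add]; congr 1; push_cast; ring
    rw [e, hs _ (by rw [← e]; exact hx _ (by omega) le_rfl),
      ih fun i h1 h2 => hx i h1 (by push_cast; omega)]
    ring

theorem card_res (n a : ℕ) (T : Finset ℕ) :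
    (Finset.univ.filter fun k : Fin n => (a + k) % n ∈ T).card ≤ T.card := by
  refine Finset.card_le_card_of_injOn (fun k : Fin n => (a + k) % n) (fun k hk => ?_) ?_
  · simpa using hk
  · intro k _ l _ hkl
    have h1 : (k : ℕ) ≡ l [MOD n] := Nat.ModEq.add_left_cancel' a hkl
    exact Fin.ext (Nat.ModEq.eq_of_lt_of_lt h1 k.2 l.2)

theorem t_zone : T_zone := by
  intro hcnt θ r ι L N P M I h b C hN hNL hM hMP
  have L0 : 0 < L := by omega
  have P0 : 0 < P := by omega
  have ι0 : 0 ≤ ι := measureReal_nonneg.trans C.small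
  set T2 : Finset ℕ := Finset.range M ∪ Finset.Ico (P - M) P with hT2
  set Y1 : Set Cir := {x | h x % L ∈ Finset.range N} with hY1
  set Y2 : Set Cir := {x | (h x / L) % P ∈ T2} with hY2
  have m1 : MeasurableSet Y1 :=
    C.mh (MeasurableSet.of_discrete (s := {n | n % L ∈ Finset.range N}))
  have m2 : MeasurableSet Y2 := C.mh (MeasurableSet.of_discrete (s := {n | (n / L) % P ∈ T2}))
  have fw : ∀ (n : ℕ) (x : Cir), x ∉ Hit θ I 1 n → ∀ k : ℕ, k ≤ n → h (mv θ x k) = h x + k := by
    intro n x hx k hk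
    have := h_fwd C.hs x 0 k fun i h1 h2 => not_Hit hx (by omega) (by omega)
    rwa [zero_add, mv_zero] at this
  have b1 : mu.real Y1 ≤ (N : ℝ) / L + L * ι := by
    have := hcnt θ Y1 (Hit θ I 1 L) L (fun k => (k : ℕ)) N m1 (Hit_meas θ C.mI _ _) L0
      (Nat.cast_nonneg _) fun x hx => by
        have h1 := card_res L (h x) (Finset.range N)
        rw [Finset.card_range] at h1
        refine Nat.cast_le.2 (le_trans (Finset.card_le_card fun k hk => ?_) h1)
        simp only [Finset.mem_filter, Finset.mem_univ, true_and, hY1, mem_setOf_eq] at hk ⊢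
        rwa [fw L x hx k k.2.le] at hk
    have h2 := Hit_le θ C.mI 1 L
    have h3 := mul_le_mul_of_nonneg_left C.small (Nat.cast_nonneg (α := ℝ) L)
    linarith
  have b2 : mu.real Y2 ≤ 2 * (M : ℝ) / P + P * L * ι := by
    have := hcnt θ Y2 (Hit θ I 1 (P * L)) P (fun k => ((k : ℕ) * L : ℕ)) (2 * M) m2
      (Hit_meas θ C.mI _ _) P0 (by positivity) fun x hx => by
        have h1 := card_res P (h x / L) T2
        have h3 : T2.card ≤ 2 * M := by
          refine (Finset.card_union_le _ _).trans ?_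
          rw [Finset.card_range, Nat.card_Ico]; omega
        rw [show (2 : ℝ) * M = ((2 * M : ℕ) : ℝ) by push_cast; ring]
        refine Nat.cast_le.2 (le_trans (Finset.card_le_card fun k hk => ?_) (h1.trans h3))
        simp only [Finset.mem_filter, Finset.mem_univ, true_and, hY2, mem_setOf_eq] at hk ⊢
        rwa [fw (P * L) x hx _ (Nat.mul_le_mul_right _ k.2.le),
          Nat.add_mul_div_right _ _ L0] at hk
    have h2 := Hit_le θ C.mI 1 (P * L)
    have h3 := mul_le_mul_of_nonneg_left C.small (Nat.cast_nonneg (α := ℝ) (P * L))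
    push_cast at h2 h3
    linarith
  set a0 : ℤ := -((M * L + N : ℕ) : ℤ) + 1 with ha0
  set n0 : ℕ := 2 * (M * L) + N with hn0
  have b0 : mu.real (Hit θ I a0 n0) ≤ 3 * (P * L * ι) := by
    have h2 := Hit_le θ C.mI a0 n0
    have h3 : n0 ≤ 3 * (P * L) := by
      have : M * L ≤ P * L := Nat.mul_le_mul_right _ hMP
      have : L ≤ P * L := Nat.le_mul_of_pos_left _ P0
      omega
    have h4 : (n0 : ℝ) ≤ 3 * (P * L) := by exact_mod_cast h3
    calc _ ≤ n0 * mu.real I := h2
      _ ≤ 3 * (P * L) * ι := mul_le_mul h4 C.small measureReal_nonneg (by positivity)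
      _ = _ := by ring
  refine ⟨Hit θ I a0 n0 ∪ Y1 ∪ Y2, ((Hit_meas θ C.mI _ _).union m1).union m2, ?_, fun x hx => ?_⟩
  · have h1 := measureReal_union_le (μ := mu) (Hit θ I a0 n0 ∪ Y1) Y2
    have h2 := measureReal_union_le (μ := mu) (Hit θ I a0 n0) Y1
    have h3 : (L : ℝ) * ι ≤ P * L * ι := by
      have : (1 : ℝ) ≤ P := by exact_mod_cast P0
      have : (L : ℝ) ≤ P * L := le_mul_of_one_le_left (Nat.cast_nonneg _) this
      exact mul_le_mul_of_nonneg_right this ι0
    linarith
  · simp only [mem_union, not_or] at hx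
    obtain ⟨⟨x0, x1⟩, x2⟩ := hx
    have nI : ∀ i : ℤ, -((M * L + N : ℕ) : ℤ) < i → i ≤ (M * L : ℕ) → mv θ x i ∉ I :=
      fun i h1 h2 => not_Hit x0 (by omega) (by omega)
    have hbig : M * L + N ≤ h x := by
      by_contra hc
      exact nI (-(h x : ℤ)) (by omega) (by omega) (C.hI x)
    have fwd : ∀ i : ℕ, i ≤ M * L → h (mv θ x i) = h x + i := fun i hi => by
      have := h_fwd C.hs x 0 i fun j h1 h2 => nI j (by omega) (by omega)
      rwa [zero_add, mv_zero] at this
    have bwd : ∀ i : ℕ, i ≤ M * L → h (mv θ x (-(i : ℤ))) + i = h x := fun i hi => by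
      have := h_fwd C.hs x (-(i : ℤ)) i fun j h1 h2 => nI j (by omega) (by omega)
      rw [neg_add_cancel, mv_zero] at this
      exact this.symm
    have x1' : N ≤ h x % L := by simpa [hY1] using x1
    have x2' : M ≤ (h x / L) % P ∧ (h x / L) % P + M < P := by
      have h1 := Nat.mod_lt (h x / L) P0
      simp only [hY2, hT2, mem_setOf_eq, Finset.mem_union, Finset.mem_range, Finset.mem_Ico,
        not_or, not_and, not_lt] at x2
      omega
    have beq : ∀ y, N ≤ h y % L → b y = h y / L := fun y hy => by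
      have h1 := Nat.mod_le (h y) L
      obtain ⟨h2, h3⟩ := C.lo y (by omega)
      have h4 : h y / L ≤ (h y - N) / L := by
        rw [Nat.le_div_iff_mul_le L0]
        have := Nat.div_add_mod (h y) L
        rw [mul_comm] at this
        omega
      omega
    refine ⟨fun i hi => by rw [fwd i hi]; omega, fun k hk => ?_⟩
    have kl : k * L ≤ M * L := Nat.mul_le_mul_right _ hk.le
    have e1 : b (mv θ x (k * L : ℕ)) = h x / L + k := by
      rw [beq _ (by rw [fwd _ kl, Nat.add_mul_mod_self_right]; exact x1'), fwd _ kl,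
        Nat.add_mul_div_right _ _ L0]
    have e2 : b (mv θ x (-((k * L : ℕ) : ℤ))) + k = h x / L := by
      have h1 := bwd _ kl
      rw [beq _ (by rw [← Nat.add_mul_mod_self_right _ k L, h1]; exact x1'),
        ← Nat.add_mul_div_right _ _ L0, h1]
    rw [e1, beq x x1']
    refine ⟨rfl, ?_, ?_⟩
    · rw [← Nat.mod_add_mod, Nat.mod_eq_of_lt (by omega)]
    · set c := b (mv θ x (-((k * L : ℕ) : ℤ)))
      rw [← e2] at x2' ⊢
      have h1 := Nat.mod_lt c P0
      rw [← Nat.mod_add_mod] at x2' ⊢
      by_cases h2 : c % P + k < P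
      · rw [Nat.mod_eq_of_lt h2]
      · exfalso
        have h3 : (c % P + k) % P = c % P + k - P := by
          rw [Nat.mod_eq_sub_mod (by omega), Nat.mod_eq_of_lt (by omega)]
        omega

end Crest.Agent.Lead.RI
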